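import Vale.Agent.P226.Uniform

namespace Vale.Agent.P226

open MeasureTheory ProbabilityTheory Real Set Filter Topology
open scoped RealInnerProductSpace

lemma exp_approx_on' (x : ℝ) (hx0 : 0 ≤ x) (hx : x ≤ 107 / 100) :
    |rexp (-(x ^ 2) / 2) - (1 - x ^ 2 / 2 + x ^ 4 / 8 - x ^ 6 / 48 + x ^ 8 / 384 - x ^ 10 / 3840)|
      ≤ 0.00006 := by
  have hy1 : x ^ 2 / 2 ≤ 0.57245 := by nlinarith
  have h := exp_neg_approx (x ^ 2 / 2) (by positivity) (by linarith)
  have h2 : (x ^ 2 / 2) ^ 6 ≤ 0.57245 ^ 6 := by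
    apply pow_le_pow_left₀ (by positivity) hy1
  have h3 : (x ^ 2 / 2) ^ 6 * (7 / 4320) ≤ 0.00006 := by
    calc (x ^ 2 / 2) ^ 6 * (7 / 4320) ≤ 0.57245 ^ 6 * (7 / 4320) := by gcongr
      _ ≤ 0.00006 := by norm_num
  have h4 : -(x ^ 2) / 2 = -(x ^ 2 / 2) := by ring
  rw [h4]
  have h5 : (1 - x ^ 2 / 2 + x ^ 4 / 8 - x ^ 6 / 48 + x ^ 8 / 384 - x ^ 10 / 3840)
      = (1 - x ^ 2 / 2 + (x ^ 2 / 2) ^ 2 / 2 - (x ^ 2 / 2) ^ 3 / 6 + (x ^ 2 / 2) ^ 4 / 24
        - (x ^ 2 / 2) ^ 5 / 120) := by ring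
  rw [h5]
  exact h.trans h3

/-- bound on the Gaussian integral up to `1.07` -/
lemma J_bound' : ∫ x in (0:ℝ)..(107/100), rexp (-(x ^ 2) / 2) ≤ 0.8967 := by
  have hpoly : ∀ c : ℝ, ∫ x in (0:ℝ)..(107/100), ((1 - x ^ 2 / 2 + x ^ 4 / 8 - x ^ 6 / 48
      + x ^ 8 / 384 - x ^ 10 / 3840) + c) = (107/100) - (107/100) ^ 3 / 6 + (107/100) ^ 5 / 40
      - (107/100) ^ 7 / 336 + (107/100) ^ 9 / 3456 - (107/100) ^ 11 / 42240 + c * (107/100) := by
    intro c
    have hd : ∀ x ∈ uIcc (0:ℝ) (107/100), HasDerivAt (fun x : ℝ => x - x ^ 3 / 6 + x ^ 5 / 40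
        - x ^ 7 / 336 + x ^ 9 / 3456 - x ^ 11 / 42240 + c * x)
        ((1 - x ^ 2 / 2 + x ^ 4 / 8 - x ^ 6 / 48 + x ^ 8 / 384 - x ^ 10 / 3840) + c) x := by
      intro x _
      have h := ((((((hasDerivAt_id x).fun_sub ((hasDerivAt_pow 3 x).div_const 6)).fun_add
        ((hasDerivAt_pow 5 x).div_const 40)).fun_sub ((hasDerivAt_pow 7 x).div_const 336)).fun_add
        ((hasDerivAt_pow 9 x).div_const 3456)).fun_sub ((hasDerivAt_pow 11 x).div_const 42240)).fun_add
        ((hasDerivAt_id x).const_mul c)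
      refine h.congr_deriv ?_
      push_cast
      ring
    rw [intervalIntegral.integral_eq_sub_of_hasDerivAt hd (by
      apply Continuous.intervalIntegrable; fun_prop)]
    ring
  have hcont : IntervalIntegrable (fun x : ℝ => rexp (-(x ^ 2) / 2)) volume 0 (107/100) := by
    apply Continuous.intervalIntegrable; fun_prop
  have h1 : ∫ x in (0:ℝ)..(107/100), rexp (-(x ^ 2) / 2) ≤
        ∫ x in (0:ℝ)..(107/100), ((1 - x ^ 2 / 2 + x ^ 4 / 8 - x ^ 6 / 48
      + x ^ 8 / 384 - x ^ 10 / 3840) + 0.00006) := by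
    apply intervalIntegral.integral_mono_on (by norm_num) hcont (by
        apply Continuous.intervalIntegrable; fun_prop)
    intro x hx
    have := (abs_le.1 (exp_approx_on' x hx.1 hx.2)).2
    linarith
  rw [hpoly] at h1
  refine le_trans h1 ?_
  norm_num

lemma gQ_lower : 0.1422 ≤ gQ (107/100) := by
  rw [gQ_eq]
  have h1 : ∫ x in (0:ℝ)..(107/100), gphi x = (√(2 * π))⁻¹ * ∫ x in (0:ℝ)..(107/100), rexp (-(x ^ 2) / 2) := by
    simp only [gphi]
    rw [intervalIntegral.integral_const_mul]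
  rw [h1]
  obtain ⟨hc1, hc2⟩ := c_bounds
  have hJ := J_bound'
  have h0 : 0 ≤ ∫ x in (0:ℝ)..(107/100), rexp (-(x ^ 2) / 2) :=
    intervalIntegral.integral_nonneg (by norm_num) fun x _ => (exp_pos _).le
  have : (√(2 * π))⁻¹ * ∫ x in (0:ℝ)..(107/100), rexp (-(x ^ 2) / 2) ≤ 0.3989423 * 0.8967 := by
    gcongr
  norm_num at this ⊢
  linarith

lemma gphi_upper : gphi (107/100) ≤ 0.2252 := by
  have h := (abs_le.1 (exp_approx_on' (107/100) (by norm_num) le_rfl)).2
  obtain ⟨hc1, hc2⟩ := c_bounds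
  have h1 : rexp (-((107/100 : ℝ) ^ 2) / 2) ≤ 0.5643 := by norm_num at h ⊢; linarith
  have h2 : gphi (107/100) = (√(2 * π))⁻¹ * rexp (-((107/100 : ℝ) ^ 2) / 2) := rfl
  rw [h2]
  calc _ ≤ 0.3989423 * (0.5643 : ℝ) := by gcongr
    _ ≤ 0.2252 := by norm_num

/-- `φ² / Q` is decreasing on `[1,∞)`, in the form used. -/
lemma gphi_sq_le (t : ℝ) (ht : 107/100 ≤ t) : gphi t ^ 2 ≤ 0.357 * gQ t := by
  set r : ℝ → ℝ := fun t => 0.357 * gQ t - gphi t ^ 2 with hr
  -- r' = φ (2 t φ - 0.357); instead use the quotient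
  have hQpos : ∀ s : ℝ, 0 ≤ s → 0 < s → 0 < gQ s := by
    intro s hs hs0
    have h1 := mills s hs
    have h2 := gphi_pos s
    have : 0 < s * gphi s / (1 + s ^ 2) := by positivity
    linarith
  have hanti : AntitoneOn (fun s => gphi s ^ 2 / gQ s) (Ici 1) := by
    have hder : ∀ s : ℝ, 1 ≤ s → HasDerivAt (fun s => gphi s ^ 2 / gQ s)
        (gphi s ^ 2 * (gphi s - 2 * s * gQ s) / gQ s ^ 2) s := by
      intro s hs
      have hQ := hQpos s (by linarith) (by linarith)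
      have h1 := ((hasDerivAt_gphi s).fun_pow 2).fun_div (hasDerivAt_gQ s) hQ.ne'
      refine h1.congr_deriv ?_
      field_simp
      ring
    apply antitoneOn_of_deriv_nonpos (convex_Ici 1)
    · exact fun x hx => (hder x hx).continuousAt.continuousWithinAt
    · intro x hx
      rw [interior_Ici] at hx
      exact (hder x (le_of_lt hx)).differentiableAt.differentiableWithinAt
    · intro x hx
      rw [interior_Ici] at hx
      have hx1 : 1 < x := hx
      rw [(hder x hx1.le).deriv]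
      have h1 := mills x (by linarith)
      have h2 := gphi_pos x
      have h3 : gphi x ≤ 2 * x * (x * gphi x / (1 + x ^ 2)) := by
        rw [← mul_div_assoc, le_div_iff₀ (by positivity)]
        nlinarith [mul_pos h2 (show (0:ℝ) < x ^ 2 - 1 by nlinarith)]
      have h4 : 2 * x * (x * gphi x / (1 + x ^ 2)) ≤ 2 * x * gQ x :=
        mul_le_mul_of_nonneg_left h1 (by linarith)
      have h5 := hQpos x (by linarith) (by linarith)
      apply div_nonpos_of_nonpos_of_nonneg _ (by positivity)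
      apply mul_nonpos_of_nonneg_of_nonpos (by positivity)
      linarith
  have h1 := hanti (mem_Ici.2 (by norm_num : (1:ℝ) ≤ 107/100)) (mem_Ici.2 (by linarith)) ht
  simp only at h1
  have hQt := hQpos t (by linarith) (by linarith)
  have hQ1 := gQ_lower
  have hp1 := gphi_upper
  have hp0 := gphi_pos (107/100)
  have h2 : gphi (107/100) ^ 2 / gQ (107/100) ≤ 0.357 := by
    rw [div_le_iff₀ (by linarith)]
    have : gphi (107/100) ^ 2 ≤ 0.2252 ^ 2 := by gcongr
    norm_num at *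
    linarith
  have h3 : gphi t ^ 2 / gQ t ≤ 0.357 := h1.trans h2
  rwa [div_le_iff₀ hQt] at h3

lemma tendsto_gQ_atTop : Tendsto gQ atTop (𝓝 0) := by
  have h1 : ∀ᶠ t in atTop, gQ t ≤ gphi t := by
    filter_upwards [eventually_ge_atTop (1:ℝ)] with t ht
    rw [← integral_Ioi_mul_gphi t]
    unfold gQ
    apply setIntegral_mono_on integrable_gphi.integrableOn integrable_mul_gphi.integrableOn
      measurableSet_Ioi
    intro x hx
    have hx1 : t < x := hx
    have := gphi_pos x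
    nlinarith
  exact tendsto_of_tendsto_of_tendsto_of_le_of_le' tendsto_const_nhds tendsto_gphi_atTop
    (Eventually.of_forall gQ_nonneg) h1

lemma exists_gQ_eq (a : ℝ) (ha0 : 0 < a) (ha : a ≤ 0.14) : ∃ t, 107/100 ≤ t ∧ gQ t = a := by
  have hcont : Continuous gQ := continuous_iff_continuousAt.2 fun t => (hasDerivAt_gQ t).continuousAt
  obtain ⟨T, hT1, hT2⟩ := ((tendsto_gQ_atTop.eventually (gt_mem_nhds ha0)).and
    (eventually_ge_atTop (107/100))).exists
  have h := intermediate_value_Icc' hT2 hcont.continuousOn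
  have : a ∈ Icc (gQ T) (gQ (107/100)) := ⟨hT1.le, by have := gQ_lower; linarith⟩
  obtain ⟨t, ht, hta⟩ := h this
  exact ⟨t, ht.1, hta⟩

variable {E : Type*} [NormedAddCommGroup E] [InnerProductSpace ℝ E] [FiniteDimensional ℝ E]
  [MeasurableSpace E] [BorelSpace E]

/-- `E (⟨w,x⟩ - |w| t)_+ = |w| (φ(t) - t Q(t))`. -/
lemma integral_pos_part_eq (w : E) (hw : w ≠ 0) (t : ℝ) :
    ∫ x, max (⟪w, x⟫ - ‖w‖ * t) 0 ∂(stdGaussian E) = ‖w‖ * (gphi t - t * gQ t) := by
  have hpos : 0 < ‖w‖ := norm_pos_iff.2 hw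
  have h1 : ∫ x, max (⟪w, x⟫ - ‖w‖ * t) 0 ∂(stdGaussian E)
      = ∫ y, max (y - ‖w‖ * t) 0 ∂(gaussianReal 0 (‖w‖₊ ^ 2)) := by
    rw [← map_inner_stdGaussian w, integral_map (by fun_prop) (by fun_prop)]
  have h2 : gaussianReal 0 (‖w‖₊ ^ 2) = (gaussianReal 0 1).map (‖w‖ * ·) := by
    rw [gaussianReal_map_const_mul]
    simp only [mul_zero, mul_one]
    congr 1
  have h3 : ∫ y, max (y - ‖w‖ * t) 0 ∂(gaussianReal 0 (‖w‖₊ ^ 2))
      = ∫ y, ‖w‖ * max (y - t) 0 ∂(gaussianReal 0 1) := by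
    rw [h2, integral_map (by fun_prop) (by fun_prop)]
    refine integral_congr_ae (ae_of_all _ fun y => ?_)
    simp only
    rw [mul_max_of_nonneg _ _ hpos.le, mul_zero, mul_sub]
  rw [h1, h3, integral_const_mul, integral_pos_part]

/-- half-space bound: if `γ(A) = Q(t)` with `t ≥ 0` then `|z(A)| ≤ φ(t)`. -/
lemma norm_moment_le (A : Set E) (t : ℝ) (ht : 0 ≤ t)
    (hA : (stdGaussian E).real A ≤ gQ t) : ‖∫ x in A, x ∂(stdGaussian E)‖ ≤ gphi t := by
  set μ := stdGaussian E with hμ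
  set z := ∫ x in A, x ∂μ with hz
  rcases eq_or_ne z 0 with h0 | h0
  · rw [h0, norm_zero]; exact (gphi_pos t).le
  have hpos : 0 < ‖z‖ := norm_pos_iff.2 h0
  have hint : IntegrableOn (fun x : E => x) A μ :=
    (IsGaussian.integrable_id (μ := stdGaussian E)).integrableOn
  have e1 : ‖z‖ ^ 2 = ∫ x in A, ⟪z, x⟫ ∂μ := by
    rw [integral_inner hint]
    exact (real_inner_self_eq_norm_sq _).symm
  have e2 : ∫ x in A, ⟪z, x⟫ ∂μ ≤ ∫ x in A, (‖z‖ * t + max (⟪z, x⟫ - ‖z‖ * t) 0) ∂μ := by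
    apply integral_mono (integrable_inner_stdGaussian z).integrableOn
      ((integrable_const (‖z‖ * t)).integrableOn.add
        (integrable_pos_part_stdGaussian z (‖z‖ * t)).integrableOn)
    intro x
    have := le_max_left (⟪z, x⟫ - ‖z‖ * t) 0
    simp only [Pi.add_apply]
    linarith
  have e3 : ∫ x in A, (‖z‖ * t + max (⟪z, x⟫ - ‖z‖ * t) 0) ∂μ
      = (‖z‖ * t) * μ.real A + ∫ x in A, max (⟪z, x⟫ - ‖z‖ * t) 0 ∂μ := by
    rw [integral_add (integrable_const (‖z‖ * t)).integrableOn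
      (integrable_pos_part_stdGaussian z (‖z‖ * t)).integrableOn]
    congr 1
    rw [setIntegral_const, smul_eq_mul, mul_comm]
  have e4 : ∫ x in A, max (⟪z, x⟫ - ‖z‖ * t) 0 ∂μ ≤ ∫ x, max (⟪z, x⟫ - ‖z‖ * t) 0 ∂μ :=
    setIntegral_le_integral (integrable_pos_part_stdGaussian z (‖z‖ * t))
      (ae_of_all _ fun x => le_max_right _ _)
  have e5 := integral_pos_part_eq z h0 t
  rw [← hμ] at e5
  have e6 : ‖z‖ ^ 2 ≤ ‖z‖ * gphi t := by
    calc ‖z‖ ^ 2 = ∫ x in A, ⟪z, x⟫ ∂μ := e1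
      _ ≤ _ := e2
      _ = _ := e3
      _ ≤ (‖z‖ * t) * gQ t + ‖z‖ * (gphi t - t * gQ t) := by
        rw [e5] at e4
        gcongr
      _ = ‖z‖ * gphi t := by ring
  nlinarith

theorem small_cell_bound (A : Set E) (hA : (stdGaussian E).real A ≤ 0.14) :
    ‖∫ x in A, x ∂(stdGaussian E)‖ ^ 2 ≤ 0.357 * (stdGaussian E).real A := by
  rcases (measureReal_nonneg (μ := stdGaussian E) (s := A)).eq_or_lt with h0 | h0
  · have h1 : (stdGaussian E) A = 0 := by
      have := h0.symm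
      rwa [measureReal_eq_zero_iff] at this
    rw [Measure.restrict_eq_zero.2 h1]
    simp [← h0]
  · obtain ⟨t, ht, hta⟩ := exists_gQ_eq _ h0 hA
    have h1 := norm_moment_le A t (by linarith) hta.ge
    have h2 := gphi_sq_le t ht
    rw [← hta]
    calc _ ≤ gphi t ^ 2 := by gcongr
      _ ≤ _ := h2

theorem small_cells {ι : Type*} [Fintype ι] (A : ι → Set E)
    (hm : ∀ i, MeasurableSet (A i)) (hd : Pairwise (fun i j => AEDisjoint (stdGaussian E) (A i) (A j)))
    (hs : ∀ i, (stdGaussian E).real (A i) ≤ 0.14) :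
    ∑ i, ‖∫ x in A i, x ∂(stdGaussian E)‖ ^ 2 ≤ 0.357 := by
  have h3 : ∑ i, (stdGaussian E).real (A i) ≤ 1 := by
    have e1 : (stdGaussian E) (⋃ i, A i) = ∑ i, (stdGaussian E) (A i) := by
      have := measure_iUnion₀ hd (fun i => (hm i).nullMeasurableSet)
      rw [this, tsum_fintype]
    have e2 : (stdGaussian E).real (⋃ i, A i) = ∑ i, (stdGaussian E).real (A i) := by
      simp only [Measure.real]
      rw [e1, ENNReal.toReal_sum (fun i _ => measure_ne_top _ _)]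
    rw [← e2]
    exact measureReal_le_one
  calc _ ≤ ∑ i, 0.357 * (stdGaussian E).real (A i) :=
        Finset.sum_le_sum fun i _ => small_cell_bound (A i) (hs i)
    _ = 0.357 * ∑ i, (stdGaussian E).real (A i) := by rw [Finset.mul_sum]
    _ ≤ 0.357 := by linarith

end Vale.Agent.P226
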