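import Vale.Agent.P226.Numeric

namespace Vale.Agent.P226

open MeasureTheory ProbabilityTheory Real Set Filter Topology
open scoped RealInnerProductSpace

variable {E : Type*} [NormedAddCommGroup E] [InnerProductSpace ℝ E] [FiniteDimensional ℝ E]
  [MeasurableSpace E] [BorelSpace E]

/-- the law of a linear functional under the standard Gaussian -/
lemma map_inner_stdGaussian (w : E) :
    (stdGaussian E).map (fun x => ⟪w, x⟫) = gaussianReal 0 (‖w‖₊ ^ 2) := by
  have h := IsGaussian.map_eq_gaussianReal (μ := stdGaussian E) (innerSL ℝ w)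
  rw [integral_strongDual_stdGaussian, variance_dual_stdGaussian] at h
  have h2 : (‖(innerSL ℝ w : StrongDual ℝ E)‖ ^ 2).toNNReal = ‖w‖₊ ^ 2 := by
    rw [innerSL_apply_norm]
    ext
    rw [Real.coe_toNNReal _ (by positivity)]
    simp
  rw [h2] at h
  exact h

lemma integrable_inner_stdGaussian (w : E) : Integrable (fun x => ⟪w, x⟫) (stdGaussian E) :=
  (IsGaussian.integrable_id (μ := stdGaussian E)).const_inner w

lemma integrable_pos_part_stdGaussian (w : E) (l : ℝ) :
    Integrable (fun x => max (⟪w, x⟫ - l) 0) (stdGaussian E) :=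
  ((integrable_inner_stdGaussian w).sub (integrable_const l)).pos_part

/-- `E (⟨w,x⟩ - l)_+ ≤ (K/l) |w|²` with `K = 0.10125`. -/
lemma integral_pos_part_le (w : E) (l : ℝ) (hl : 0 < l) :
    ∫ x, max (⟪w, x⟫ - l) 0 ∂(stdGaussian E) ≤ 0.10125 / l * ‖w‖ ^ 2 := by
  rcases eq_or_ne w 0 with rfl | hw
  · simp [hl.le]
  have hpos : 0 < ‖w‖ := norm_pos_iff.2 hw
  have h1 : ∫ x, max (⟪w, x⟫ - l) 0 ∂(stdGaussian E)
      = ∫ y, max (y - l) 0 ∂(gaussianReal 0 (‖w‖₊ ^ 2)) := by
    rw [← map_inner_stdGaussian w, integral_map (by fun_prop) (by fun_prop)]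
  have h2 : gaussianReal 0 (‖w‖₊ ^ 2) = (gaussianReal 0 1).map (‖w‖ * ·) := by
    rw [gaussianReal_map_const_mul]
    simp only [mul_zero, mul_one]
    congr 1
  have h3 : ∫ y, max (y - l) 0 ∂(gaussianReal 0 (‖w‖₊ ^ 2))
      = ∫ y, ‖w‖ * max (y - l / ‖w‖) 0 ∂(gaussianReal 0 1) := by
    rw [h2, integral_map (by fun_prop) (by fun_prop)]
    refine integral_congr_ae (ae_of_all _ fun y => ?_)
    simp only
    rw [mul_max_of_nonneg _ _ hpos.le, mul_zero, mul_sub, mul_div_cancel₀ _ hpos.ne']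
  rw [h1, h3, integral_const_mul, integral_pos_part]
  have h4 := gu_le (l / ‖w‖) (by positivity)
  unfold gu at h4
  have h5 : ‖w‖ * (gphi (l / ‖w‖) - l / ‖w‖ * gQ (l / ‖w‖))
      = (‖w‖ ^ 2 / l) * (l / ‖w‖ * (gphi (l / ‖w‖) - l / ‖w‖ * gQ (l / ‖w‖))) := by
    field_simp
  rw [h5]
  calc _ ≤ (‖w‖ ^ 2 / l) * 0.10125 := by gcongr
    _ = 0.10125 / l * ‖w‖ ^ 2 := by ring

/-- The uniform bound. -/
theorem uniform_bound {ι : Type*} [Fintype ι] (A : ι → Set E)
    (hm : ∀ i, MeasurableSet (A i)) (hd : Pairwise (fun i j => AEDisjoint (stdGaussian E) (A i) (A j))) :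
    ∑ i, ‖∫ x in A i, x ∂(stdGaussian E)‖ ^ 2 ≤ 0.405 := by
  set μ := stdGaussian E with hμ
  set z : ι → E := fun i => ∫ x in A i, x ∂μ with hz
  set F : ℝ := ∑ i, ‖z i‖ ^ 2 with hF
  have hFnn : 0 ≤ F := Finset.sum_nonneg fun i _ => by positivity
  set l : ℝ := 0.2025 with hl
  have h1 : ∀ i, ‖z i‖ ^ 2 ≤ l * μ.real (A i) + 0.10125 / l * ‖z i‖ ^ 2 := by
    intro i
    have hint : IntegrableOn (fun x : E => x) (A i) μ :=
      (IsGaussian.integrable_id (μ := stdGaussian E)).integrableOn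
    have e1 : ‖z i‖ ^ 2 = ∫ x in A i, ⟪z i, x⟫ ∂μ := by
      rw [integral_inner hint]
      exact (real_inner_self_eq_norm_sq _).symm
    have e2 : ∫ x in A i, ⟪z i, x⟫ ∂μ ≤ ∫ x in A i, (l + max (⟪z i, x⟫ - l) 0) ∂μ := by
      apply integral_mono (integrable_inner_stdGaussian (z i)).integrableOn
        ((integrable_const l).integrableOn.add (integrable_pos_part_stdGaussian (z i) l).integrableOn)
      intro x
      have := le_max_left (⟪z i, x⟫ - l) 0
      simp only [Pi.add_apply]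
      linarith
    have e3 : ∫ x in A i, (l + max (⟪z i, x⟫ - l) 0) ∂μ
        = l * μ.real (A i) + ∫ x in A i, max (⟪z i, x⟫ - l) 0 ∂μ := by
      rw [integral_add (integrable_const l).integrableOn
        (integrable_pos_part_stdGaussian (z i) l).integrableOn]
      congr 1
      rw [setIntegral_const, smul_eq_mul, mul_comm]
    have e4 : ∫ x in A i, max (⟪z i, x⟫ - l) 0 ∂μ ≤ ∫ x, max (⟪z i, x⟫ - l) 0 ∂μ :=
      setIntegral_le_integral (integrable_pos_part_stdGaussian (z i) l)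
        (ae_of_all _ fun x => le_max_right _ _)
    have e5 := integral_pos_part_le (z i) l (by norm_num)
    rw [← hμ] at e5
    calc ‖z i‖ ^ 2 = ∫ x in A i, ⟪z i, x⟫ ∂μ := e1
      _ ≤ _ := e2
      _ = _ := e3
      _ ≤ l * μ.real (A i) + 0.10125 / l * ‖z i‖ ^ 2 := by
        have := e4.trans e5
        gcongr
  have h2 : F ≤ l * ∑ i, μ.real (A i) + 0.10125 / l * F := by
    calc F ≤ ∑ i, (l * μ.real (A i) + 0.10125 / l * ‖z i‖ ^ 2) := Finset.sum_le_sum fun i _ => h1 i
      _ = _ := by rw [Finset.sum_add_distrib, ← Finset.mul_sum, ← Finset.mul_sum]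
  have h3 : ∑ i, μ.real (A i) ≤ 1 := by
    have e1 : μ (⋃ i, A i) = ∑ i, μ (A i) := by
      have := measure_iUnion₀ hd (fun i => (hm i).nullMeasurableSet)
      rw [this, tsum_fintype]
    have e2 : μ.real (⋃ i, A i) = ∑ i, μ.real (A i) := by
      simp only [Measure.real]
      rw [e1, ENNReal.toReal_sum (fun i _ => measure_ne_top μ _)]
    rw [← e2]
    exact measureReal_le_one
  rw [hl] at h2
  norm_num at h2 ⊢
  linarith

end Vale.Agent.P226
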