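import Mathlib

namespace Vale.Agent.P226

open MeasureTheory ProbabilityTheory Real Set Filter Topology

/-- The standard Gaussian density. -/
noncomputable def gphi (t : ℝ) : ℝ := (√(2 * π))⁻¹ * rexp (-(t ^ 2) / 2)

/-- The Gaussian tail. -/
noncomputable def gQ (t : ℝ) : ℝ := ∫ x in Ioi t, gphi x

lemma gphi_pos (t : ℝ) : 0 < gphi t := by
  unfold gphi; positivity

lemma gphi_eq_pdf (t : ℝ) : gaussianPDFReal 0 1 t = gphi t := by
  unfold gphi gaussianPDFReal; simp

lemma continuous_gphi : Continuous gphi := by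
  unfold gphi; fun_prop

lemma integrable_gphi : Integrable gphi := by
  have := integrable_gaussianPDFReal 0 1
  exact this.congr (ae_of_all _ gphi_eq_pdf)

lemma hasDerivAt_gphi (t : ℝ) : HasDerivAt gphi (-t * gphi t) t := by
  unfold gphi
  have h : HasDerivAt (fun t : ℝ => -(t ^ 2) / 2) (-t) t := by
    have := ((hasDerivAt_pow 2 t).fun_neg).div_const 2
    exact this.congr_deriv (by norm_num; ring)
  have h2 := (h.exp).const_mul ((√(2 * π))⁻¹)
  exact h2.congr_deriv (by ring)

lemma integral_gphi : ∫ x, gphi x = 1 := by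
  rw [← integral_gaussianPDFReal_eq_one 0 (v := 1) one_ne_zero]
  exact integral_congr_ae (ae_of_all _ fun x => (gphi_eq_pdf x).symm)

lemma gQ_zero : gQ 0 = 1 / 2 := by
  unfold gQ gphi
  have h := integral_gaussian_Ioi (1 / 2)
  rw [integral_const_mul]
  have h2 : ∀ x : ℝ, rexp (-(x ^ 2) / 2) = rexp (-(1 / 2) * x ^ 2) := by
    intro x; congr 1; ring
  simp_rw [h2, h]
  have : π / (1 / 2) = 2 * π := by ring
  rw [this]
  have hp : √(2 * π) ≠ 0 := by positivity
  field_simp

lemma gQ_eq (t : ℝ) : gQ t = 1 / 2 - ∫ x in (0:ℝ)..t, gphi x := by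
  have h := intervalIntegral.integral_interval_add_Ioi (μ := volume) (a := 0) (b := t)
    (f := gphi) integrable_gphi.integrableOn integrable_gphi.integrableOn
  have h0 := gQ_zero
  unfold gQ at *
  linarith

lemma hasDerivAt_gQ (t : ℝ) : HasDerivAt gQ (-gphi t) t := by
  have h1 : HasDerivAt (fun u => ∫ x in (0:ℝ)..u, gphi x) (gphi t) t :=
    continuous_gphi.integral_hasStrictDerivAt 0 t |>.hasDerivAt
  have h2 := (hasDerivAt_const t (1 / 2 : ℝ)).sub h1
  rw [zero_sub] at h2
  exact h2.congr_of_eventuallyEq (Eventually.of_forall fun u => gQ_eq u)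

lemma tendsto_gphi_atTop : Tendsto gphi atTop (𝓝 0) := by
  unfold gphi
  have h : Tendsto (fun t : ℝ => rexp (-(t ^ 2) / 2)) atTop (𝓝 0) := by
    apply Real.tendsto_exp_atBot.comp
    have : Tendsto (fun t : ℝ => t ^ 2 / 2) atTop atTop :=
      (tendsto_pow_atTop two_ne_zero).atTop_div_const (by norm_num)
    have h3 := tendsto_neg_atTop_atBot.comp this
    refine h3.congr fun t => ?_
    simp only [Function.comp]; ring
  simpa using h.const_mul ((√(2 * π))⁻¹)

lemma integrable_mul_gphi : Integrable (fun x => x * gphi x) := by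
  have h := integrable_mul_exp_neg_mul_sq (b := 1 / 2) (by norm_num)
  have h2 := h.const_mul ((√(2 * π))⁻¹)
  refine h2.congr (ae_of_all _ fun x => ?_)
  simp only [gphi]
  have : rexp (-(x ^ 2) / 2) = rexp (-(1 / 2) * x ^ 2) := by congr 1; ring
  rw [this]; ring

/-- `∫_t^∞ x φ(x) dx = φ(t)`. -/
lemma integral_Ioi_mul_gphi (t : ℝ) : ∫ x in Ioi t, x * gphi x = gphi t := by
  have h := integral_Ioi_of_hasDerivAt_of_tendsto' (a := t) (f := fun x => -gphi x)
    (f' := fun x => x * gphi x) (m := 0)
    (fun x _ => (hasDerivAt_gphi x).fun_neg.congr_deriv (by ring))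
    integrable_mul_gphi.integrableOn (by simpa using tendsto_gphi_atTop.neg)
  rw [h]; ring

/-- `E (g - t)_+ = φ(t) - t Q(t)`. -/
lemma integral_pos_part (t : ℝ) :
    ∫ y, max (y - t) 0 ∂(gaussianReal 0 1) = gphi t - t * gQ t := by
  rw [integral_gaussianReal_eq_integral_smul (by norm_num)]
  have h1 : ∀ x : ℝ, gaussianPDFReal 0 1 x • max (x - t) 0
      = (Ioi t).indicator (fun x => x * gphi x - t * gphi x) x := by
    intro x
    rw [gphi_eq_pdf, smul_eq_mul]
    by_cases hx : t < x
    · rw [indicator_of_mem (by exact hx), max_eq_left (by linarith)]; ring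
    · rw [indicator_of_notMem (by exact hx), max_eq_right (by linarith)]; ring
  simp_rw [h1]
  rw [integral_indicator measurableSet_Ioi,
    integral_sub integrable_mul_gphi.integrableOn (integrable_gphi.const_mul t).integrableOn,
    integral_Ioi_mul_gphi, integral_const_mul]
  rfl

end Vale.Agent.P226
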