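import Vale.Agent.P226.TailBound

namespace Vale.Agent.P226

open MeasureTheory ProbabilityTheory Real Set Filter Topology

lemma exp_neg_approx (y : ℝ) (hy : 0 ≤ y) (hy1 : y ≤ 1) :
    |rexp (-y) - (1 - y + y ^ 2 / 2 - y ^ 3 / 6 + y ^ 4 / 24 - y ^ 5 / 120)| ≤ y ^ 6 * (7 / 4320) := by
  have h := Real.exp_bound (x := -y) (by rw [abs_neg, abs_of_nonneg hy]; exact hy1) (n := 6) (by norm_num)
  simp only [Finset.sum_range_succ, Finset.sum_range_zero, Nat.factorial] at h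
  rw [abs_neg, abs_of_nonneg hy] at h
  norm_num at h
  have h2 : (1 - y + y ^ 2 / 2 - y ^ 3 / 6 + y ^ 4 / 24 - y ^ 5 / 120)
      = (1 + -y + y ^ 2 / 2 + (-y) ^ 3 / 6 + y ^ 4 / 24 + (-y) ^ 5 / 120) := by ring
  rw [h2]
  convert h using 3

/-- the Taylor polynomial of `exp(-x^2/2)` -/
lemma exp_approx_on (x : ℝ) (hx0 : 0 ≤ x) (hx : x ≤ 153 / 250) :
    |rexp (-(x ^ 2) / 2) - (1 - x ^ 2 / 2 + x ^ 4 / 8 - x ^ 6 / 48 + x ^ 8 / 384 - x ^ 10 / 3840)|
      ≤ 0.00000007 := by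
  have hy1 : x ^ 2 / 2 ≤ 0.187272 := by nlinarith
  have h := exp_neg_approx (x ^ 2 / 2) (by positivity) (by linarith)
  have h2 : (x ^ 2 / 2) ^ 6 ≤ 0.187272 ^ 6 := by
    apply pow_le_pow_left₀ (by positivity) hy1
  have h3 : (x ^ 2 / 2) ^ 6 * (7 / 4320) ≤ 0.00000007 := by
    calc (x ^ 2 / 2) ^ 6 * (7 / 4320) ≤ 0.187272 ^ 6 * (7 / 4320) := by gcongr
      _ ≤ 0.00000007 := by norm_num
  have h4 : -(x ^ 2) / 2 = -(x ^ 2 / 2) := by ring
  rw [h4]
  have h5 : (1 - x ^ 2 / 2 + x ^ 4 / 8 - x ^ 6 / 48 + x ^ 8 / 384 - x ^ 10 / 3840)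
      = (1 - x ^ 2 / 2 + (x ^ 2 / 2) ^ 2 / 2 - (x ^ 2 / 2) ^ 3 / 6 + (x ^ 2 / 2) ^ 4 / 24
        - (x ^ 2 / 2) ^ 5 / 120) := by ring
  rw [h5]
  exact h.trans h3

/-- bounds on the Gaussian integral up to `0.612` -/
lemma J_bounds :
    0.5758504 ≤ ∫ x in (0:ℝ)..(153/250), rexp (-(x ^ 2) / 2) ∧
    ∫ x in (0:ℝ)..(153/250), rexp (-(x ^ 2) / 2) ≤ 0.5758506 := by
  have hpoly : ∀ c : ℝ, ∫ x in (0:ℝ)..(153/250), ((1 - x ^ 2 / 2 + x ^ 4 / 8 - x ^ 6 / 48
      + x ^ 8 / 384 - x ^ 10 / 3840) + c) = (153/250) - (153/250) ^ 3 / 6 + (153/250) ^ 5 / 40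
      - (153/250) ^ 7 / 336 + (153/250) ^ 9 / 3456 - (153/250) ^ 11 / 42240 + c * (153/250) := by
    intro c
    have hd : ∀ x ∈ uIcc (0:ℝ) (153/250), HasDerivAt (fun x : ℝ => x - x ^ 3 / 6 + x ^ 5 / 40
        - x ^ 7 / 336 + x ^ 9 / 3456 - x ^ 11 / 42240 + c * x)
        ((1 - x ^ 2 / 2 + x ^ 4 / 8 - x ^ 6 / 48 + x ^ 8 / 384 - x ^ 10 / 3840) + c) x := by
      intro x _
      have h := ((((((hasDerivAt_id x).fun_sub ((hasDerivAt_pow 3 x).div_const 6)).fun_add
        ((hasDerivAt_pow 5 x).div_const 40)).fun_sub ((hasDerivAt_pow 7 x).div_const 336)).fun_add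
        ((hasDerivAt_pow 9 x).div_const 3456)).fun_sub ((hasDerivAt_pow 11 x).div_const 42240)).fun_add
        ((hasDerivAt_id x).const_mul c)
      refine h.congr_deriv ?_
      push_cast
      ring
    rw [intervalIntegral.integral_eq_sub_of_hasDerivAt hd (by
      apply Continuous.intervalIntegrable; fun_prop)]
    ring
  have hcont : IntervalIntegrable (fun x : ℝ => rexp (-(x ^ 2) / 2)) volume 0 (153/250) := by
    apply Continuous.intervalIntegrable; fun_prop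
  constructor
  · have h1 : ∫ x in (0:ℝ)..(153/250), ((1 - x ^ 2 / 2 + x ^ 4 / 8 - x ^ 6 / 48
      + x ^ 8 / 384 - x ^ 10 / 3840) + (-0.00000007)) ≤
        ∫ x in (0:ℝ)..(153/250), rexp (-(x ^ 2) / 2) := by
      apply intervalIntegral.integral_mono_on (by norm_num) (by
        apply Continuous.intervalIntegrable; fun_prop) hcont
      intro x hx
      have := (abs_le.1 (exp_approx_on x hx.1 hx.2)).1
      linarith
    rw [hpoly] at h1
    refine le_trans ?_ h1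
    norm_num
  · have h1 : ∫ x in (0:ℝ)..(153/250), rexp (-(x ^ 2) / 2) ≤
        ∫ x in (0:ℝ)..(153/250), ((1 - x ^ 2 / 2 + x ^ 4 / 8 - x ^ 6 / 48
      + x ^ 8 / 384 - x ^ 10 / 3840) + 0.00000007) := by
      apply intervalIntegral.integral_mono_on (by norm_num) hcont (by
        apply Continuous.intervalIntegrable; fun_prop)
      intro x hx
      have := (abs_le.1 (exp_approx_on x hx.1 hx.2)).2
      linarith
    rw [hpoly] at h1
    refine le_trans h1 ?_
    norm_num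

lemma E_bounds : 0.829218 ≤ rexp (-((153/250 : ℝ) ^ 2) / 2) ∧
    rexp (-((153/250 : ℝ) ^ 2) / 2) ≤ 0.8292182 := by
  have h := abs_le.1 (exp_approx_on (153/250) (by norm_num) le_rfl)
  constructor
  · have := h.1; norm_num at this ⊢; linarith
  · have := h.2; norm_num at this ⊢; linarith

lemma c_bounds : 0.3989422 ≤ (√(2 * π))⁻¹ ∧ (√(2 * π))⁻¹ ≤ 0.3989423 := by
  have h1 := Real.pi_gt_d20
  have h2 := Real.pi_lt_d6
  have hs : 0 < √(2 * π) := by positivity
  have hsq : √(2 * π) ^ 2 = 2 * π := Real.sq_sqrt (by positivity)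
  constructor
  · rw [le_inv_comm₀ (by norm_num) hs]
    rw [Real.sqrt_le_left (by norm_num)]
    norm_num
    linarith
  · rw [inv_le_comm₀ hs (by norm_num)]
    apply Real.le_sqrt_of_sq_le
    norm_num
    linarith

/-- The key numerical bound: `t (φ(t) - t Q(t)) ≤ 0.10125` for all `t ≥ 0`. -/
lemma gu_le (t : ℝ) (ht : 0 ≤ t) : gu t ≤ 0.10125 := by
  have key : ∀ s ∈ Icc (0:ℝ) 1, gu s ≤ 0.10125 := by
    intro s hs
    have h := gu_le_tangent (153/250) s ⟨by norm_num, by norm_num⟩ hs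
    obtain ⟨hJ1, hJ2⟩ := J_bounds
    obtain ⟨hE1, hE2⟩ := E_bounds
    obtain ⟨hc1, hc2⟩ := c_bounds
    set J := ∫ x in (0:ℝ)..(153/250), rexp (-(x ^ 2) / 2) with hJ
    set E := rexp (-((153/250 : ℝ) ^ 2) / 2) with hE
    set c := (√(2 * π))⁻¹ with hc
    have hphi : gphi (153/250) = c * E := rfl
    have hQ : gQ (153/250) = 1/2 - c * J := by
      rw [gQ_eq]
      congr 1
      simp only [gphi]
      rw [intervalIntegral.integral_const_mul]
    have hu : gu (153/250) = (153/250) * (c * E - (153/250) * (1/2 - c * J)) := by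
      unfold gu; rw [hphi, hQ]
    rw [hu, hphi, hQ] at h
    have hcE1 : 0.3989422 * 0.829218 ≤ c * E := by nlinarith
    have hcE2 : c * E ≤ 0.3989423 * 0.8292182 := by nlinarith
    have hcJ1 : 0.3989422 * 0.5758504 ≤ c * J := by nlinarith
    have hcJ2 : c * J ≤ 0.3989423 * 0.5758506 := by nlinarith
    set p := c * E
    set q := c * J
    have hd1 : -0.00001 ≤ p - 2 * (153/250) * (1/2 - q) := by
      norm_num at *; linarith
    have hd2 : p - 2 * (153/250) * (1/2 - q) ≤ 0.00001 := by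
      norm_num at *; linarith
    have hu2 : (153/250) * (p - (153/250) * (1/2 - q)) ≤ 0.10123 := by
      norm_num at *; linarith
    have h3 : (p - 2 * (153/250) * (1/2 - q)) * (s - 153/250) ≤ 0.00001 := by
      have hs1 : |s - 153/250| ≤ 1 := by
        rw [abs_le]; constructor <;> linarith [hs.1, hs.2]
      have hd : |p - 2 * (153/250) * (1/2 - q)| ≤ 0.00001 := abs_le.2 ⟨by linarith, hd2⟩
      calc _ ≤ |(p - 2 * (153/250) * (1/2 - q)) * (s - 153/250)| := le_abs_self _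
        _ = |p - 2 * (153/250) * (1/2 - q)| * |s - 153/250| := abs_mul _ _
        _ ≤ 0.00001 * 1 := by gcongr
        _ = 0.00001 := by ring
    linarith
  rcases le_total t 1 with h | h
  · exact key t ⟨ht, h⟩
  · exact (gu_le_of_one_le t h).trans (key 1 ⟨by norm_num, le_rfl⟩)

end Vale.Agent.P226
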