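import Vale.Agent.P226.Gauss1D

namespace Vale.Agent.P226

open MeasureTheory ProbabilityTheory Real Set Filter Topology

lemma gQ_nonneg (t : ℝ) : 0 ≤ gQ t :=
  setIntegral_nonneg measurableSet_Ioi fun x _ => (gphi_pos x).le

/-- Mills ratio lower bound. -/
lemma mills (t : ℝ) (ht : 0 ≤ t) : t * gphi t / (1 + t ^ 2) ≤ gQ t := by
  set r : ℝ → ℝ := fun t => gQ t - t * gphi t / (1 + t ^ 2) with hr
  have hder : ∀ s : ℝ, HasDerivAt r (-2 * gphi s / (1 + s ^ 2) ^ 2) s := by
    intro s
    have hne : (1 + s ^ 2) ≠ 0 := by positivity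
    have h1 := ((hasDerivAt_id s).mul (hasDerivAt_gphi s)).div
      ((hasDerivAt_const s (1:ℝ)).add (hasDerivAt_pow 2 s)) hne
    have h2 := (hasDerivAt_gQ s).sub h1
    refine h2.congr_deriv ?_
    simp only [id, Pi.mul_apply, Pi.add_apply]
    field_simp
    ring
  have hanti : Antitone r := by
    apply antitone_of_deriv_nonpos (fun s => (hder s).differentiableAt)
    intro s
    rw [(hder s).deriv]
    have := gphi_pos s
    have h3 : 0 ≤ gphi s / (1 + s ^ 2) ^ 2 := by positivity
    have h4 : -2 * gphi s / (1 + s ^ 2) ^ 2 = -2 * (gphi s / (1 + s ^ 2) ^ 2) := by ring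
    rw [h4]; linarith
  have hlim : Tendsto (fun T : ℝ => -gphi T) atTop (𝓝 0) := by simpa using tendsto_gphi_atTop.neg
  have hge : ∀ᶠ T in atTop, -gphi T ≤ r t := by
    filter_upwards [eventually_ge_atTop t, eventually_ge_atTop (0:ℝ)] with T hT hT0
    have h5 := hanti hT
    have h6 := gQ_nonneg T
    have h7 : T * gphi T / (1 + T ^ 2) ≤ gphi T := by
      rw [div_le_iff₀ (by positivity)]
      have := gphi_pos T
      nlinarith [sq_nonneg (T - 1)]
    simp only [hr] at h5 ⊢
    linarith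
  have h8 : 0 ≤ r t := le_of_tendsto hlim hge
  simp only [hr] at h8
  linarith

/-- The function `t ↦ t (φ(t) - t Q(t))`. -/
noncomputable def gu (t : ℝ) : ℝ := t * (gphi t - t * gQ t)

lemma hasDerivAt_gu (t : ℝ) : HasDerivAt gu (gphi t - 2 * t * gQ t) t := by
  have h1 := (hasDerivAt_id t).mul ((hasDerivAt_gphi t).sub ((hasDerivAt_id t).mul (hasDerivAt_gQ t)))
  refine (h1.congr_deriv ?_).congr_of_eventuallyEq (Eventually.of_forall fun s => ?_)
  · simp only [id, Pi.mul_apply, Pi.sub_apply]; ring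
  · simp only [id, Pi.mul_apply, Pi.sub_apply, gu]

lemma hasDerivAt_gu' (t : ℝ) :
    HasDerivAt (fun s => gphi s - 2 * s * gQ s) (t * gphi t - 2 * gQ t) t := by
  have h1 := (hasDerivAt_gphi t).sub (((hasDerivAt_id t).const_mul 2).mul (hasDerivAt_gQ t))
  refine (h1.congr_deriv ?_).congr_of_eventuallyEq (Eventually.of_forall fun s => ?_)
  · simp only [id]; ring
  · simp only [id, Pi.mul_apply, Pi.sub_apply]

/-- `gu'` is antitone on `[0,1]`. -/
lemma gu'_antitoneOn : AntitoneOn (fun s => gphi s - 2 * s * gQ s) (Icc 0 1) := by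
  apply antitoneOn_of_deriv_nonpos (convex_Icc 0 1)
  · exact fun x _ => (hasDerivAt_gu' x).continuousAt.continuousWithinAt
  · exact fun x _ => (hasDerivAt_gu' x).differentiableAt.differentiableWithinAt
  · intro x hx
    rw [interior_Icc] at hx
    rw [(hasDerivAt_gu' x).deriv]
    have h1 := mills x hx.1.le
    have h2 := gphi_pos x
    have h3 : x * gphi x / 2 ≤ x * gphi x / (1 + x ^ 2) := by
      apply div_le_div_of_nonneg_left
      · have := hx.1; positivity
      · positivity
      · have := hx.1; have := hx.2; nlinarith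
    linarith

/-- tangent line bound on `[0,1]` -/
lemma gu_le_tangent (t0 t : ℝ) (ht0 : t0 ∈ Icc (0:ℝ) 1) (ht : t ∈ Icc (0:ℝ) 1) :
    gu t ≤ gu t0 + (gphi t0 - 2 * t0 * gQ t0) * (t - t0) := by
  rcases lt_trichotomy t t0 with h | h | h
  · obtain ⟨c, hc, hc2⟩ := exists_hasDerivAt_eq_slope gu (fun s => gphi s - 2 * s * gQ s) h
      (fun x _ => (hasDerivAt_gu x).continuousAt.continuousWithinAt)
      (fun x _ => hasDerivAt_gu x)
    have h1 := gu'_antitoneOn (a := c) (b := t0) ⟨ht.1.trans hc.1.le, hc.2.le.trans ht0.2⟩ ht0 hc.2.le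
    simp only at h1 hc2
    rw [hc2, le_div_iff₀ (by linarith)] at h1
    linarith
  · rw [h]; simp
  · obtain ⟨c, hc, hc2⟩ := exists_hasDerivAt_eq_slope gu (fun s => gphi s - 2 * s * gQ s) h
      (fun x _ => (hasDerivAt_gu x).continuousAt.continuousWithinAt)
      (fun x _ => hasDerivAt_gu x)
    have h1 := gu'_antitoneOn (a := t0) (b := c) ht0 ⟨ht0.1.trans hc.1.le, hc.2.le.trans ht.2⟩ hc.1.le
    simp only at h1 hc2
    rw [hc2, div_le_iff₀ (by linarith)] at h1
    linarith

/-- `gu` is antitone on `[1,∞)`. -/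
lemma gu_le_of_one_le (t : ℝ) (ht : 1 ≤ t) : gu t ≤ gu 1 := by
  have hanti : AntitoneOn gu (Ici 1) := by
    apply antitoneOn_of_deriv_nonpos (convex_Ici 1)
    · exact fun x _ => (hasDerivAt_gu x).continuousAt.continuousWithinAt
    · exact fun x _ => (hasDerivAt_gu x).differentiableAt.differentiableWithinAt
    · intro x hx
      rw [interior_Ici] at hx
      have hx1 : 1 < x := hx
      rw [(hasDerivAt_gu x).deriv]
      have h1 := mills x (by linarith)
      have h2 := gphi_pos x
      have h3 : gphi x ≤ 2 * x * (x * gphi x / (1 + x ^ 2)) := by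
        rw [← mul_div_assoc, le_div_iff₀ (by positivity)]
        nlinarith [mul_pos h2 (show (0:ℝ) < x ^ 2 - 1 by nlinarith)]
      have h4 : 2 * x * (x * gphi x / (1 + x ^ 2)) ≤ 2 * x * gQ x :=
        mul_le_mul_of_nonneg_left h1 (by linarith)
      linarith
  exact hanti (mem_Ici.2 le_rfl) (mem_Ici.2 ht) ht

end Vale.Agent.P226
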